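import Mathlib.Analysis.Calculus.ImplicitContDiff
import Mathlib.Analysis.SpecialFunctions.SmoothTransition
import Mathlib.Analysis.Calculus.Deriv.MeanValue
import Mathlib.Topology.Order.IntermediateValue

/-!
A family of diffeomorphisms of the line which are dilations at the two ends, and its inverse.
-/

open scoped ContDiff
open Set Filter Topology

noncomputable section

namespace Vale.Agent.P354ST

/-- The function t χ(t). -/
def ww (t : ℝ) : ℝ := Real.smoothTransition t * t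

/-- The dilation by c.1 for t ≤ 0 and by c.2 for t ≥ 1. -/
def ph (c : ℝ × ℝ) (t : ℝ) : ℝ := c.1 * t + (c.2 - c.1) * ww t

/-- The inverse. -/
def gi (c : ℝ × ℝ) (u : ℝ) : ℝ := Function.invFun (ph c) u

theorem cd_ww : ContDiff ℝ ∞ ww := Real.smoothTransition.contDiff.mul contDiff_id

theorem ww_lo {t : ℝ} (h : t ≤ 0) : ww t = 0 := by
  rw [ww, Real.smoothTransition.zero_of_nonpos h, zero_mul]

theorem ww_hi {t : ℝ} (h : 1 ≤ t) : ww t = t := by
  rw [ww, Real.smoothTransition.one_of_one_le h, one_mul]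

theorem ph_lo (c : ℝ × ℝ) {t : ℝ} (h : t ≤ 0) : ph c t = c.1 * t := by
  rw [ph, ww_lo h, mul_zero, add_zero]

theorem ph_hi (c : ℝ × ℝ) {t : ℝ} (h : 1 ≤ t) : ph c t = c.2 * t := by
  rw [ph, ww_hi h]
  ring

theorem ph_one (t : ℝ) : ph (1, 1) t = t := by simp [ph]

theorem cd_ph : ContDiff ℝ ∞ fun z : (ℝ × ℝ) × ℝ => ph z.1 z.2 :=
  (contDiff_fst.fst.mul contDiff_snd).add
    ((contDiff_fst.snd.sub contDiff_fst.fst).mul (cd_ww.comp contDiff_snd))

theorem der_ph (c : ℝ × ℝ) (t : ℝ) : HasDerivAt (ph c) (c.1 + (c.2 - c.1) * deriv ww t) t := by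
  have h := (cd_ww.differentiable (by simp) t).hasDerivAt
  have h2 := ((hasDerivAt_id' t).const_mul c.1).fun_add (h.const_mul (c.2 - c.1))
  rw [mul_one] at h2
  exact h2

/-- Admissible parameters. -/
def Ok (c : ℝ × ℝ) : Prop :=
  c.1 ∈ Icc (1 / 2 : ℝ) 2 ∧ c.2 ∈ Icc (1 / 2 : ℝ) 2 ∧ ∀ t, 0 < c.1 + (c.2 - c.1) * deriv ww t

theorem ev_ok : ∀ᶠ c in 𝓝 ((1, 1) : ℝ × ℝ), Ok c := by
  have h1 : ∀ᶠ c in 𝓝 ((1, 1) : ℝ × ℝ), c.1 ∈ Icc (1 / 2 : ℝ) 2 :=
    continuous_fst.continuousAt.eventually (Icc_mem_nhds (by norm_num) (by norm_num))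
  have h2 : ∀ᶠ c in 𝓝 ((1, 1) : ℝ × ℝ), c.2 ∈ Icc (1 / 2 : ℝ) 2 :=
    continuous_snd.continuousAt.eventually (Icc_mem_nhds (by norm_num) (by norm_num))
  have hd : Continuous (deriv ww) := cd_ww.continuous_deriv (by simp)
  have h3 : ∀ᶠ c in 𝓝 ((1, 1) : ℝ × ℝ), ∀ t ∈ Icc (0 : ℝ) 1,
      0 < c.1 + (c.2 - c.1) * deriv ww t := by
    refine isCompact_Icc.eventually_forall_of_forall_eventually fun t _ => ?_
    have : Continuous fun z : (ℝ × ℝ) × ℝ => z.1.1 + (z.1.2 - z.1.1) * deriv ww z.2 := by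
      fun_prop
    exact this.continuousAt.eventually (lt_mem_nhds (by simp))
  filter_upwards [h1, h2, h3] with c a1 a2 a3
  refine ⟨a1, a2, fun t => ?_⟩
  rcases lt_or_ge t 0 with h | h
  · have : ww =ᶠ[𝓝 t] fun _ => 0 := by
      filter_upwards [gt_mem_nhds h] with s hs using ww_lo hs.le
    rw [this.deriv_eq]
    simp only [deriv_const, mul_zero, add_zero]
    linarith [a1.1]
  rcases le_or_gt t 1 with h' | h'
  · exact a3 t ⟨h, h'⟩
  · have : ww =ᶠ[𝓝 t] fun s => s := by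
      filter_upwards [lt_mem_nhds h'] with s hs using ww_hi hs.le
    rw [this.deriv_eq]
    simp only [deriv_id'', mul_one]
    linarith [a2.1]

variable {c : ℝ × ℝ}

theorem Ok.mono (h : Ok c) : StrictMono (ph c) :=
  strictMono_of_deriv_pos fun t => (der_ph c t).deriv ▸ h.2.2 t

theorem Ok.surj (h : Ok c) : Function.Surjective (ph c) := by
  intro u
  have hc : Continuous (ph c) := continuous_iff_continuousAt.2 fun t => (der_ph c t).continuousAt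
  have h0 := abs_nonneg u
  have h1 : ph c (-(2 * |u|)) ≤ u := by
    rw [ph_lo c (by linarith)]
    nlinarith [h.1.1, neg_abs_le u]
  have h2 : u ≤ ph c (2 * |u| + 1) := by
    rw [ph_hi c (by linarith)]
    nlinarith [h.2.1.1, le_abs_self u]
  obtain ⟨t, -, ht⟩ := intermediate_value_Icc (by linarith) hc.continuousOn ⟨h1, h2⟩
  exact ⟨t, ht⟩

theorem Ok.gi_ph (h : Ok c) (t : ℝ) : gi c (ph c t) = t :=
  Function.leftInverse_invFun h.mono.injective t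

theorem Ok.ph_gi (h : Ok c) (u : ℝ) : ph c (gi c u) = u := Function.rightInverse_invFun h.surj u

theorem Ok.gi_lo (h : Ok c) {u : ℝ} (hu : u ≤ 0) : gi c u = c.1⁻¹ * u ∧ gi c u ≤ 0 := by
  have h0 : 0 < c.1 := by linarith [h.1.1]
  have h1 : c.1⁻¹ * u ≤ 0 := mul_nonpos_of_nonneg_of_nonpos (inv_pos.2 h0).le hu
  have h2 := h.gi_ph (c.1⁻¹ * u)
  rw [ph_lo c h1, mul_inv_cancel_left₀ h0.ne'] at h2
  exact ⟨h2, h2 ▸ h1⟩

theorem Ok.gi_hi (h : Ok c) {u : ℝ} (hu : 2 ≤ u) : gi c u = c.2⁻¹ * u ∧ 1 ≤ gi c u := by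
  have h0 : 0 < c.2 := by linarith [h.2.1.1]
  have h1 : 1 ≤ c.2⁻¹ * u := by
    rw [inv_mul_eq_div, le_div_iff₀ h0]
    linarith [h.2.1.2]
  have h2 := h.gi_ph (c.2⁻¹ * u)
  rw [ph_hi c h1, mul_inv_cancel_left₀ h0.ne'] at h2
  exact ⟨h2, h2 ▸ h1⟩

theorem inv_half {x : ℝ} (h : x ∈ Icc (1 / 2 : ℝ) 2) : 1 / 2 ≤ x⁻¹ := by
  have h0 : 0 < x := by linarith [h.1]
  rw [le_inv_comm₀ (by norm_num) h0]
  linarith [h.2]

/-- The inverse is jointly smooth. -/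
theorem cd_gi (h : ∀ᶠ c' in 𝓝 c, Ok c') (u : ℝ) :
    ContDiffAt ℝ ∞ (fun z : (ℝ × ℝ) × ℝ => gi z.1 z.2) (c, u) := by
  have h0 := h.self_of_nhds
  let f : ((ℝ × ℝ) × ℝ) × ℝ → ℝ := fun w => ph w.1.1 w.2 - w.1.2
  have hf : ContDiff ℝ ∞ f :=
    (cd_ph.comp (contDiff_fst.fst.prodMk contDiff_snd)).sub contDiff_fst.snd
  set v : ((ℝ × ℝ) × ℝ) × ℝ := ((c, u), gi c u) with hv
  have hd : HasFDerivAt (fun t : ℝ => f ((c, u), t))
      (fderiv ℝ f v ∘L ContinuousLinearMap.inr ℝ ((ℝ × ℝ) × ℝ) ℝ) (gi c u) :=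
    (hf.differentiable (by simp) v).hasFDerivAt.comp (gi c u) (hasFDerivAt_prodMk_right _ _)
  have hd2 := ((der_ph c (gi c u)).sub_const u).hasFDerivAt
  have he := hd.unique hd2
  have hi : (fderiv ℝ f v ∘L ContinuousLinearMap.inr ℝ ((ℝ × ℝ) × ℝ) ℝ).IsInvertible := by
    rw [he]
    refine ⟨ContinuousLinearEquiv.unitsEquivAut ℝ (Units.mk0 _ (h0.2.2 (gi c u)).ne'), ?_⟩
    ext
    simp
  have pn : (∞ : WithTop ℕ∞) ≠ 0 := by simp
  have h1 := hf.contDiffAt.contDiffAt_implicitFunction pn hi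
  have h2 := hf.contDiffAt.eventually_apply_implicitFunction pn hi
  refine h1.congr_of_eventuallyEq ?_
  have h3 : ∀ᶠ z : (ℝ × ℝ) × ℝ in 𝓝 (c, u), Ok z.1 := continuous_fst.continuousAt.eventually h
  filter_upwards [h2, h3] with z hz ho
  have h4 : f v = 0 := sub_eq_zero.2 (h0.ph_gi u)
  rw [h4] at hz
  have h5 := sub_eq_zero.1 hz
  rw [← ho.gi_ph (hf.contDiffAt.implicitFunction pn hi z)]
  exact congrArg (gi z.1) h5.symm

end Vale.Agent.P354ST
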