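import Vale.Agent.P354ST.Ten
import Vale.Agent.P354ST.Inv

/-!
START: the change of coordinates which removes the rotations and equalises the rates.
-/

open scoped ContDiff
open Set Filter Topology Matrix

noncomputable section

namespace Vale.Agent.P354ST

open Vale.Agent.P354I
open Vale.Agent.P354T (qf UP wt wn_congr pm_le_of)
open Vale.Agent.P354J (PDy)
open Vale.Agent.P354R (kap)

/-- The parameters of one end and of both ends. -/
abbrev Pm : Type := P3 × (Fin 3 → Fin 3 → ℝ)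
abbrev Lm : Type := Pm × Pm

/-- The matrix, the ratio of the rates. -/
def mt (x : Pm) : M3 := Matrix.of x.2
def cc (k : ℝ) (x : Pm) : ℝ := k / kap x.1.1 x.1.2.1
def c2 (k : ℝ) (l : Lm) : ℝ × ℝ := (cc k l.2, cc k l.1)

/-- The map and its inverse. -/
def ff (k : ℝ) (l : Lm) (t : ℝ) : ℝ := ph (c2 k l) t
def AA (l : Lm) (t : ℝ) : M3 :=
  Real.smoothTransition t • (mt l.1)ᵀ + (1 - Real.smoothTransition t) • (mt l.2)ᵀ
def gg (k : ℝ) (l : Lm) (u : ℝ) : ℝ := gi (c2 k l) u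
def BB (k : ℝ) (l : Lm) (u : ℝ) : M3 := (AA l (gg k l u))⁻¹
def ps (k : ℝ) (l : Lm) : X → X := Psi (ff k l) (AA l)

/-- The base point. -/
def x0 (p : P3) : Pm := (p, fun i j => (1 : M3) i j)

theorem mt_x0 (p : P3) : mt (x0 p) = 1 := rfl

theorem AA_hi (l : Lm) {t : ℝ} (h : 1 ≤ t) : AA l t = (mt l.1)ᵀ := by
  rw [AA, Real.smoothTransition.one_of_one_le h, sub_self, one_smul, zero_smul, add_zero]

theorem AA_lo (l : Lm) {t : ℝ} (h : t ≤ 0) : AA l t = (mt l.2)ᵀ := by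
  rw [AA, Real.smoothTransition.zero_of_nonpos h, sub_zero, one_smul, zero_smul, zero_add]

theorem cd_mt (x : Pm) (i j : Fin 3) : ContDiffAt ℝ ∞ (fun x : Pm => mt x i j) x := by
  simp only [mt, of_apply]
  fun_prop

theorem cd_AA (z : Lm × ℝ) (i j : Fin 3) :
    ContDiffAt ℝ ∞ (fun z : Lm × ℝ => AA z.1 z.2 i j) z := by
  have h1 : ContDiffAt ℝ ∞ (fun z : Lm × ℝ => Real.smoothTransition z.2) z :=
    Real.smoothTransition.contDiff.contDiffAt.comp z contDiffAt_snd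
  exact (h1.mul (ContDiffAt.comp (g := fun x : Pm => mt x j i) z (cd_mt _ j i)
    contDiffAt_fst.fst)).add ((contDiffAt_const.sub h1).mul
    (ContDiffAt.comp (g := fun x : Pm => mt x j i) z (cd_mt _ j i) contDiffAt_fst.snd))

theorem cd_cc (k : ℝ) {x : Pm} (h : Adm x.1) : ContDiffAt ℝ ∞ (cc k) x :=
  contDiffAt_const.div (ContDiffAt.comp (g := fun p : P3 => kap p.1 p.2.1) x h.cd_kap.1
    contDiffAt_fst) h.cd_kap.2.ne'

/-- Good parameters. -/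
structure Gd (k : ℝ) (l : Lm) : Prop where
  a1 : Adm l.1.1
  a2 : Adm l.2.1
  ok : ∀ᶠ c in 𝓝 (c2 k l), Ok c
  det : ∀ t, (AA l t).det ≠ 0

variable {k : ℝ} {l : Lm}

theorem cd_c2 (a1 : Adm l.1.1) (a2 : Adm l.2.1) : ContDiffAt ℝ ∞ (c2 k) l :=
  ((cd_cc k a2).comp l contDiffAt_snd).prodMk ((cd_cc k a1).comp l contDiffAt_fst)

theorem Gd.ok' (h : Gd k l) : Ok (c2 k l) := h.ok.self_of_nhds

theorem Gd.d1 (h : Gd k l) : (mt l.1).det ≠ 0 := by
  have := h.det 1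
  rwa [AA_hi l le_rfl, det_transpose] at this

theorem Gd.d2 (h : Gd k l) : (mt l.2).det ≠ 0 := by
  have := h.det 0
  rwa [AA_lo l le_rfl, det_transpose] at this

theorem Gd.par (h : Gd k l) (t : ℝ) :
    ContDiffAt ℝ ∞ (fun z : Lm × ℝ => (c2 k z.1, z.2)) (l, t) :=
  (ContDiffAt.comp (g := c2 k) (l, t) (cd_c2 h.a1 h.a2) contDiffAt_fst).prodMk contDiffAt_snd

theorem Gd.fm (h : Gd k l) : Fm (ff k) AA l where
  sf t := cd_ph.contDiffAt.comp (l, t) (h.par t)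
  sA t i j := cd_AA _ i j
  det := h.det
  hi := ⟨_, h.ok'.2.1.1, _, fun t ht => ⟨ph_hi _ (by linarith), AA_hi l (by linarith)⟩⟩
  lo := ⟨_, h.ok'.1.1, _, fun t ht => ⟨ph_lo _ ht, AA_lo l ht⟩⟩

theorem Gd.cd_gg (h : Gd k l) (u : ℝ) :
    ContDiffAt ℝ ∞ (fun z : Lm × ℝ => gg k z.1 z.2) (l, u) :=
  ContDiffAt.comp (g := fun z : (ℝ × ℝ) × ℝ => gi z.1 z.2)
    (f := fun z : Lm × ℝ => (c2 k z.1, z.2)) (l, u) (cd_gi h.ok u) (h.par u)

theorem Gd.fm' (h : Gd k l) : Fm (gg k) (BB k) l where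
  sf := h.cd_gg
  sA u i j := cd_inv (A := fun z : Lm × ℝ => AA z.1 (gg k z.1 z.2)) (fun a b =>
    ContDiffAt.comp (g := fun z : Lm × ℝ => AA z.1 z.2 a b)
      (f := fun z : Lm × ℝ => (z.1, gg k z.1 z.2)) (l, u) (cd_AA _ a b)
      (contDiffAt_fst.prodMk (h.cd_gg u))) (h.det _) i j
  det u := by
    rw [BB, det_nonsing_inv, Ring.inverse_eq_inv']
    exact inv_ne_zero (h.det _)
  hi := ⟨_, inv_half h.ok'.2.1, (mt l.1)ᵀ⁻¹, fun u hu => ⟨(h.ok'.gi_hi hu).1, by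
    rw [BB, gg, AA_hi l (h.ok'.gi_hi hu).2]⟩⟩
  lo := ⟨_, inv_half h.ok'.1, (mt l.2)ᵀ⁻¹, fun u hu => ⟨(h.ok'.gi_lo hu).1, by
    rw [BB, gg, AA_lo l (h.ok'.gi_lo hu).2]⟩⟩

theorem Gd.inv (h : Gd k l) {y : X} (hy : y ≠ 0) :
    ps k l (Psi (gg k l) (BB k l) y) = y ∧ Psi (gg k l) (BB k l) (ps k l y) = y := by
  refine ⟨psi_psi h.fm'.det h.ok'.ph_gi (fun u => ?_) hy,
    psi_psi h.det h.ok'.gi_ph (fun t => ?_) hy⟩
  · exact mul_nonsing_inv _ (isUnit_iff_ne_zero.2 (h.det _))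
  · rw [BB, gg, ff, h.ok'.gi_ph]
    exact nonsing_inv_mul _ (isUnit_iff_ne_zero.2 (h.det _))

variable {p : P3}

theorem c2_x0 (h : Adm p) : c2 (kap p.1 p.2.1) (x0 p, x0 p) = (1, 1) := by
  have : cc (kap p.1 p.2.1) (x0 p) = 1 := div_self h.cd_kap.2.ne'
  rw [c2, this]

theorem AA_x0 (p : P3) (t : ℝ) : AA (x0 p, x0 p) t = 1 := by
  rw [AA, ← add_smul, add_sub_cancel, one_smul, mt_x0, transpose_one]

theorem ev_gd (h : Adm p) : ∀ᶠ l in 𝓝 (x0 p, x0 p), Gd (kap p.1 p.2.1) l := by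
  have h1 : ∀ᶠ l : Lm in 𝓝 (x0 p, x0 p), Adm l.1.1 :=
    (continuous_fst.fst.continuousAt (x := (x0 p, x0 p))).eventually h.ev
  have h2 : ∀ᶠ l : Lm in 𝓝 (x0 p, x0 p), Adm l.2.1 :=
    (continuous_snd.fst.continuousAt (x := (x0 p, x0 p))).eventually h.ev
  have h3 : ∀ᶠ l : Lm in 𝓝 (x0 p, x0 p), ∀ᶠ c in 𝓝 (c2 (kap p.1 p.2.1) l), Ok c :=
    (cd_c2 (l := (x0 p, x0 p)) h h).continuousAt.eventually
      (eventually_eventually_nhds.2 (c2_x0 h ▸ ev_ok))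
  have h4 : ∀ᶠ l : Lm in 𝓝 (x0 p, x0 p), ∀ t ∈ Icc (0 : ℝ) 1, (AA l t).det ≠ 0 := by
    refine isCompact_Icc.eventually_forall_of_forall_eventually fun t _ => ?_
    refine (cd_det (cd_AA ((x0 p, x0 p), t))).continuousAt.eventually_ne ?_
    simp [AA_x0]
  filter_upwards [h1, h2, h3, h4] with l a1 a2 a3 a4
  refine ⟨a1, a2, a3, fun t => ?_⟩
  rcases le_total t 0 with h | h
  · rw [AA_lo l h, ← AA_lo l le_rfl]
    exact a4 0 ⟨le_rfl, zero_le_one⟩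
  rcases le_total t 1 with h' | h'
  · exact a4 t ⟨h, h'⟩
  · rw [AA_hi l h', ← AA_hi l le_rfl]
    exact a4 1 ⟨zero_le_one, le_rfl⟩

/-- At the ends the map is a dilation composed with a rotation. -/
theorem psi_end {f : ℝ → ℝ} {A : ℝ → M3} {R : M3} {c : ℝ} {z : X} (hR : Rᵀ * R = 1) (hz : z ≠ 0)
    (hf : f (Real.log ‖z‖) = c * Real.log ‖z‖) (hA : A (Real.log ‖z‖) = Rᵀ) :
    mv R (Psi f A z) = dil c z := by
  have h1 : R * Rᵀ = 1 := mul_eq_one_comm.1 hR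
  have h2 : ‖mv Rᵀ z‖ = ‖z‖ := norm_mv (by rwa [transpose_transpose]) z
  have h3 := norm_pos_iff.2 hz
  rw [Psi, hf, hA, h2, mv_smul, mv_mv, h1, mv_one, dil, Real.rpow_sub_one h3.ne',
    Real.rpow_def_of_pos h3, mul_comm]

/-- The difference of the two references. -/
def DD (k : ℝ) (H : P3 → X → M3) (i j : Fin 3) (z : Lm × X) : ℝ :=
  pullF (mixF (rotF (mt z.1.1) (H z.1.1.1)) (rotF (mt z.1.2) (H z.1.2.1))) (ps k z.1) z.2 i j -
    mixF (pullF (H z.1.1.1) (dil (cc k z.1.1))) (pullF (H z.1.2.1) (dil (cc k z.1.2))) z.2 i j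

variable {H : P3 → X → M3}

theorem Gd.js_mix (h : Gd k l) (hH : ∀ p, Adm p → ∀ y ≠ 0, JS H p y) {y : X} (hy : y ≠ 0) :
    JS (fun l : Lm => mixF (rotF (mt l.1) (H l.1.1)) (rotF (mt l.2) (H l.2.1))) l y :=
  JS.mix hy
    (JS.rot (R := fun l : Lm => mt l.1) (F := fun l : Lm => H l.1.1) (fun i j =>
      ContDiffAt.comp (g := fun x : Pm => mt x i j) l (cd_mt _ i j) contDiffAt_fst)
      (JS.par (π := fun l : Lm => l.1.1) contDiffAt_fst.fst (hH _ h.a1 _ (mv_ne h.d1 hy))))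
    (JS.rot (R := fun l : Lm => mt l.2) (F := fun l : Lm => H l.2.1) (fun i j =>
      ContDiffAt.comp (g := fun x : Pm => mt x i j) l (cd_mt _ i j) contDiffAt_snd)
      (JS.par (π := fun l : Lm => l.2.1) contDiffAt_snd.fst (hH _ h.a2 _ (mv_ne h.d2 hy))))

theorem Gd.cd_DD (h : Gd k l) (hH : ∀ p, Adm p → ∀ y ≠ 0, JS H p y) (i j : Fin 3) :
    ∀ y ≠ 0, ContDiffAt ℝ ∞ (DD k H i j) (l, y) := fun _ hy =>
  (JS.pull (ψ := ps k) (h.fm.cd hy) (h.js_mix hH (psi_ne h.det hy)) i j).sub (JS.mix hy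
    (JS.pull (F := fun l : Lm => H l.1.1) (ψ := fun l : Lm => dil (cc k l.1))
      (cd_dil (c := fun l : Lm => cc k l.1) ((cd_cc k h.a1).comp l contDiffAt_fst) hy)
      (JS.par (π := fun l : Lm => l.1.1) contDiffAt_fst.fst (hH _ h.a1 _ (dil_ne _ hy))))
    (JS.pull (F := fun l : Lm => H l.2.1) (ψ := fun l : Lm => dil (cc k l.2))
      (cd_dil (c := fun l : Lm => cc k l.2) ((cd_cc k h.a2).comp l contDiffAt_snd) hy)
      (JS.par (π := fun l : Lm => l.2.1) contDiffAt_snd.fst (hH _ h.a2 _ (dil_ne _ hy)))) i j)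

theorem DD_x0 (h : Adm p) (H : P3 → X → M3) (i j : Fin 3) :
    ∀ y ≠ 0, DD (kap p.1 p.2.1) H i j ((x0 p, x0 p), y) = 0 := by
  intro y hy
  have h1 : ps (kap p.1 p.2.1) (x0 p, x0 p) =ᶠ[𝓝 y] dil (cc (kap p.1 p.2.1) (x0 p)) := by
    filter_upwards [isOpen_compl_singleton.mem_nhds hy] with z hz
    rw [← mv_one (ps _ _ z)]
    refine psi_end (by simp) hz ?_ (by rw [AA_x0, transpose_one])
    rw [ff, c2_x0 h, ph_one, show cc (kap p.1 p.2.1) (x0 p) = 1 from congrArg Prod.fst (c2_x0 h),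
      one_mul]
  simp only [DD]
  rw [mix_self, pull_left (mix_self _ _), mt_x0, rot_one, pull_congr _ h1, sub_self]

theorem Gd.DD_end (h : Gd k l) (h1 : (mt l.1)ᵀ * mt l.1 = 1) (h2 : (mt l.2)ᵀ * mt l.2 = 1)
    (H : P3 → X → M3) (i j : Fin 3) :
    ∀ y ≠ 0, Real.log ‖y‖ < 0 ∨ 2 < Real.log ‖y‖ → DD k H i j (l, y) = 0 := by
  intro y hy ht
  have hd : DifferentiableAt ℝ (ps k l) y := (h.fm.cd1 hy).differentiableAt (by simp)
  have hl : Real.log ‖ps k l y‖ = ph (c2 k l) (Real.log ‖y‖) := log_psi h.det hy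
  simp only [DD]
  rcases ht with ht | ht
  · have e : (fun z => mv (mt l.2) (ps k l z)) =ᶠ[𝓝 y] dil (cc k l.2) := by
      filter_upwards [isOpen_compl_singleton.mem_nhds hy, (cont_log hy).eventually (gt_mem_nhds ht)]
        with z hz z1 using psi_end h2 hz (ph_lo _ z1.le) (AA_lo l z1.le)
    rw [ph_lo _ ht.le] at hl
    rw [mix_lo _ _ ht.le, pull_left (mix_lo _ _ (by nlinarith [h.ok'.1.1])), pull_rot _ _ hd,
      pull_congr _ e, sub_self]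
  · have e : (fun z => mv (mt l.1) (ps k l z)) =ᶠ[𝓝 y] dil (cc k l.1) := by
      filter_upwards [isOpen_compl_singleton.mem_nhds hy, (cont_log hy).eventually (lt_mem_nhds ht)]
        with z hz z1 using psi_end h1 hz (ph_hi _ (by linarith)) (AA_hi l (by linarith))
    rw [ph_hi _ (by linarith)] at hl
    rw [mix_hi _ _ (by linarith), pull_left (mix_hi _ _ (by nlinarith [h.ok'.2.1.1])),
      pull_rot _ _ hd, pull_congr _ e, sub_self]

/-- The parameters of an end. -/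
def pe (p : End) : Pm := ((p.M, p.a, p.r), fun i j => p.R i j)

theorem near_dist {p : End} {M a r ε : ℝ} (hε : 0 < ε) (h : p.Near M a r ε) :
    dist (pe p) (x0 (M, a, r)) < ε ∧ dist (p.M, p.a, p.r) (M, a, r) < ε := by
  have h1 : dist (p.M, p.a, p.r) (M, a, r) < ε := by
    simp only [Prod.dist_eq, max_lt_iff, Real.dist_eq]
    exact ⟨h.1, h.2.1, h.2.2.1⟩
  refine ⟨?_, h1⟩
  rw [Prod.dist_eq, max_lt_iff]
  exact ⟨h1, (dist_pi_lt_iff hε).2 fun i => (dist_pi_lt_iff hε).2 fun j => h.2.2.2.2 i j⟩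

/-- **START.** -/
theorem start : START := by
  intro M a r0 s ε0 δ1 C K kd ha hM h1 h2 _ hK
  have h0 : Adm (M, a, r0) := ⟨ha, hM, h1, h2⟩
  obtain ⟨c, c0, hc⟩ := h0.up
  set l0 : Lm := (x0 (M, a, r0), x0 (M, a, r0)) with hl0
  have hh : ∀ p, Adm p → ∀ y ≠ 0, JS (fun p : P3 => (kerr p.1 p.2.1 p.2.2).h) p y :=
    fun p hp y hy => (hp.js hy).1
  have hk : ∀ p, Adm p → ∀ y ≠ 0, JS (fun p : P3 => (kerr p.1 p.2.1 p.2.2).K) p y :=
    fun p hp y hy => (hp.js hy).2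
  have hg : ∀ᶠ l in 𝓝 l0, Gd (kap M a) l := ev_gd h0
  obtain ⟨ε1, e1, hε1⟩ := Metric.nhds_basis_closedBall.eventually_iff.1 hg
  obtain ⟨B1, hB1⟩ := fm_cy (isCompact_closedBall l0 ε1) fun l hl => (hε1 hl).fm
  obtain ⟨B2, hB2⟩ := fm_cy (isCompact_closedBall l0 ε1) fun l hl => (hε1 hl).fm'
  have mono : ∀ {B B' : ℕ → ℝ} {ψ : X → X}, (∀ j, B j ≤ B' j) → Cy1 B ψ → Cy1 B' ψ :=
    fun hb h => ⟨h.sm, h.ne, fun j y hy => (h.bd j y hy).trans
      (mul_le_mul_of_nonneg_right (hb j) (norm_nonneg _)), fun y hy => (h.log y hy).trans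
      (mul_le_mul_of_nonneg_right (hb 0) (by positivity))⟩
  refine ⟨fun j => max (B1 j) (B2 j), c, c0, fun m η hη => ?_⟩
  have hη' : 0 < η / (18 * (m + 1)) := by positivity
  have u1 : ∀ᶠ l : Lm in 𝓝 l0, UP (kerr l.1.1.1 l.1.1.2.1 l.1.1.2.2) c :=
    (continuous_fst.fst.continuousAt (x := l0)).eventually hc
  have u2 : ∀ᶠ l : Lm in 𝓝 l0, UP (kerr l.2.1.1 l.2.1.2.1 l.2.1.2.2) c :=
    (continuous_snd.fst.continuousAt (x := l0)).eventually hc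
  have s1 := eventually_all.2 fun i => eventually_all.2 fun j =>
    shell_small s m hη' (hg.self_of_nhds.cd_DD hh i j) (DD_x0 h0 _ i j)
  have s2 := eventually_all.2 fun i => eventually_all.2 fun j =>
    shell_small s m hη' (hg.self_of_nhds.cd_DD hk i j) (DD_x0 h0 _ i j)
  obtain ⟨ε2, e2, hε2⟩ := Metric.eventually_nhds_iff.1 ((u1.and u2).and (s1.and s2))
  have e3 : 0 < min ε0 (min ε1 ε2) := lt_min hK.pos.2.1 (lt_min e1 e2)
  refine ⟨_, e3, fun p q hp hq => ?_⟩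
  obtain ⟨p1, p2⟩ := near_dist e3 hp
  obtain ⟨q1, q2⟩ := near_dist e3 hq
  have hd : dist (pe p, pe q) l0 < min ε0 (min ε1 ε2) := max_lt p1 q1
  have hb : (pe p, pe q) ∈ Metric.closedBall l0 ε1 :=
    (hd.trans_le ((min_le_right _ _).trans (min_le_left _ _))).le
  have G := hε1 hb
  obtain ⟨⟨v1, v2⟩, t1, t2⟩ := hε2 (hd.trans_le ((min_le_right _ _).trans (min_le_right _ _)))
  have up : UP (mix p.dat q.dat) c := up_mix (up_dat hp.2.2.2.1 v1) (up_dat hq.2.2.2.1 v2)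
  have k1 := hK.start (p.M, p.a, p.r) (p2.trans_le (min_le_left _ _))
  have k2 := hK.start (q.M, q.a, q.r) (q2.trans_le (min_le_left _ _))
  have eh : ∀ m' i j, wn s m' (fun y => ((mix p.dat q.dat).pull (ps (kap M a) (pe p, pe q))).h y i j -
      (mix (kd (p.M, p.a, p.r) 0) (kd (q.M, q.a, q.r) 0)).h y i j) = wn s m' fun y =>
      DD (kap M a) (fun p : P3 => (kerr p.1 p.2.1 p.2.2).h) i j ((pe p, pe q), y) :=
    fun m' i j => wn_congr s m' fun y hy => by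
      simp only [mix, (k1 y hy).1, (k2 y hy).1]
      rfl
  have ek : ∀ m' i j, wn s m' (fun y => ((mix p.dat q.dat).pull (ps (kap M a) (pe p, pe q))).K y i j -
      (mix (kd (p.M, p.a, p.r) 0) (kd (q.M, q.a, q.r) 0)).K y i j) = wn s m' fun y =>
      DD (kap M a) (fun p : P3 => (kerr p.1 p.2.1 p.2.2).K) i j ((pe p, pe q), y) :=
    fun m' i j => wn_congr s m' fun y hy => by
      simp only [mix, (k1 y hy).2, (k2 y hy).2]
      rfl
  have fin : ∀ (H : P3 → X → M3), (∀ p, Adm p → ∀ y ≠ 0, JS H p y) → ∀ m' i j,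
      wn s m' (fun y => DD (kap M a) H i j ((pe p, pe q), y)) < ⊤ := fun H hH m' i j => by
    obtain ⟨b, b0, hb⟩ := shell_bd s m' (G.cd_DD hH i j)
    exact (wn_shell b0 (G.DD_end hp.2.2.2.1 hq.2.2.2.1 H i j) hb).trans_lt ENNReal.ofReal_lt_top
  refine ⟨⟨fun i j => ⟨fun y hy => ((G.js_mix hh hy).at i j).contDiffWithinAt,
    fun y hy => ((G.js_mix hk hy).at i j).contDiffWithinAt⟩, fun y hy => ⟨up.pos c0 hy ?_, ?_⟩⟩,
    up, ps (kap M a) (pe p, pe q), Psi (gg (kap M a) (pe p, pe q)) (BB (kap M a) (pe p, pe q)),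
    ⟨mono (fun j => le_max_left _ _) (hB1 _ hb), mono (fun j => le_max_right _ _) (hB2 _ hb),
      fun y hy => G.inv hy⟩, fun m' => ?_, ?_⟩
  · exact symm_mix (symm_rot _ (P354T.symm_of (G.a1.pdy.2 _ (mv_ne G.d1 hy)).1))
      (symm_rot _ (P354T.symm_of (G.a2.pdy.2 _ (mv_ne G.d2 hy)).1))
  · exact symm_mix (symm_rot _ (G.a1.pdy.2 _ (mv_ne G.d1 hy)).2)
      (symm_rot _ (G.a2.pdy.2 _ (mv_ne G.d2 hy)).2)
  · refine ENNReal.sum_lt_top.2 fun i _ => ENNReal.sum_lt_top.2 fun j _ => ?_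
    rw [eh, ek]
    exact ENNReal.add_lt_top.2 ⟨fin _ hh m' i j, fin _ hk m' i j⟩
  · refine (pm_le_of (η := (m + 1) * (η / (18 * (m + 1)))) (by positivity) fun i j => ?_).trans
      (le_of_eq ?_)
    · rw [eh, ek]
      exact ⟨wn_shell hη'.le (G.DD_end hp.2.2.2.1 hq.2.2.2.1 _ i j) (t1 i j),
        wn_shell hη'.le (G.DD_end hp.2.2.2.1 hq.2.2.2.1 _ i j) (t2 i j)⟩
    · congr 1
      field_simp

end Vale.Agent.P354ST
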