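import Vale.Agent.P354I.Core2

/-!
Families of maps of the cylinder which are homogeneous at the two ends.
-/

open scoped ContDiff
open Set Filter Topology Matrix

noncomputable section

namespace Vale.Agent.P354ST

open Vale.Agent.P354I
open Vale.Agent.P354T (wt Sm wn_le_of wt_cont wt_nonneg)

/-- Matrices. -/
abbrev M3 : Type := Matrix (Fin 3) (Fin 3) ℝ

section calculus

variable {E P V : Type} [NormedAddCommGroup E] [NormedSpace ℝ E] [NormedAddCommGroup P]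
  [NormedSpace ℝ P] [NormedAddCommGroup V] [NormedSpace ℝ V]

theorem cd_fd {F : P × X → V} {x : P × X} (h : ContDiffAt ℝ ∞ F x) :
    ContDiffAt ℝ ∞ (fun z : P × X => fderiv ℝ (fun y => F (z.1, y)) z.2) x := by
  refine ContDiffAt.fderiv (n := ∞) (f := fun (z : P × X) (y : X) => F (z.1, y)) ?_ contDiffAt_snd
    (by exact_mod_cast le_top)
  exact ContDiffAt.comp (g := F) (f := fun w : (P × X) × X => (w.1.1, w.2)) (x, x.2) h
    (contDiffAt_fst.fst.prodMk contDiffAt_snd)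

theorem cd_iter (j : ℕ) {F : P × X → V} {x : P × X} (h : ContDiffAt ℝ ∞ F x) :
    ContDiffAt ℝ ∞ (fun z : P × X => iteratedFDeriv ℝ j (fun y => F (z.1, y)) z.2) x := by
  induction j with
  | zero =>
    simp only [iteratedFDeriv_zero_eq_comp]
    exact (continuousMultilinearCurryFin0 ℝ X V).symm.contDiff.contDiffAt.comp x h
  | succ j ih =>
    simp only [iteratedFDeriv_succ_eq_comp_left]
    exact (continuousMultilinearCurryLeftEquiv ℝ (fun _ : Fin (j + 1) => X)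
      V).symm.contDiff.contDiffAt.comp x (cd_fd ih)

theorem iter_scale (j : ℕ) (f : X → V) {τ : ℝ} (hτ : τ ≠ 0) (y : X) :
    iteratedFDeriv ℝ j (fun z => f (τ • z)) y = τ ^ j • iteratedFDeriv ℝ j f (τ • y) := by
  let g : X ≃L[ℝ] X := (LinearEquiv.smulOfNeZero ℝ X τ hτ).toContinuousLinearEquiv
  have h := g.iteratedFDerivWithin_comp_right f uniqueDiffOn_univ (mem_univ (g y)) j
  rw [preimage_univ, iteratedFDerivWithin_univ, iteratedFDerivWithin_univ] at h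
  refine Eq.trans h ?_
  ext v
  have h2 := (iteratedFDeriv ℝ j f (τ • y)).map_smul_univ (fun _ => τ) v
  rw [Finset.prod_const, Finset.card_univ, Fintype.card_fin] at h2
  exact h2

/-- The scale invariant size of the derivatives of a locally homogeneous map. -/
theorem hom_bd (j : ℕ) {f : X → V} {τ κ B : ℝ} (hτ : 0 < τ) (hκ : 0 < κ) {y : X}
    (hf : ContDiffAt ℝ ∞ f y) (h : ∀ᶠ z in 𝓝 y, f (τ • z) = κ • f z)
    (hB : ‖τ • y‖ ^ j * ‖iteratedFDeriv ℝ j f (τ • y)‖ ≤ B * ‖f (τ • y)‖) :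
    ‖y‖ ^ j * ‖iteratedFDeriv ℝ j f y‖ ≤ B * ‖f y‖ := by
  have h1 : (fun z => f (τ • z)) =ᶠ[𝓝 y] fun z => κ • f z := h
  have h2 := (h1.iteratedFDeriv ℝ j).eq_of_nhds
  rw [iter_scale j f hτ.ne', iteratedFDeriv_const_smul_apply' (hf.of_le (by exact_mod_cast le_top))]
    at h2
  have h3 := congrArg norm h2
  rw [norm_smul, norm_smul, norm_pow, Real.norm_of_nonneg hτ.le, Real.norm_of_nonneg hκ.le] at h3
  rw [h.self_of_nhds, norm_smul, norm_smul, mul_pow, Real.norm_of_nonneg hτ.le,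
    Real.norm_of_nonneg hκ.le, mul_right_comm, h3] at hB
  refine le_of_mul_le_mul_left ?_ hκ
  linarith

theorem cd_co {v : E → X} {x : E} (hv : ContDiffAt ℝ ∞ v x) (i : Fin 3) :
    ContDiffAt ℝ ∞ (fun z => v z i) x :=
  (EuclideanSpace.proj i : X →L[ℝ] ℝ).contDiff.contDiffAt.comp x hv

theorem cd_pd {F : P × X → X} {x : P × X} (h : ContDiffAt ℝ ∞ F x) (i k : Fin 3) :
    ContDiffAt ℝ ∞ (fun z : P × X => pd i (fun y => F (z.1, y)) z.2 k) x :=
  cd_co ((cd_fd h).clm_apply contDiffAt_const) k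

theorem cd_log {v : E → X} {x : E} (hv : ContDiffAt ℝ ∞ v x) (h : v x ≠ 0) :
    ContDiffAt ℝ ∞ (fun z => Real.log ‖v z‖) x :=
  (hv.norm ℝ h).log (norm_ne_zero_iff.2 h)

theorem cd_det {A : E → M3} {x : E} (h : ∀ i j, ContDiffAt ℝ ∞ (fun z => A z i j) x) :
    ContDiffAt ℝ ∞ (fun z => (A z).det) x := by
  simp only [det_apply']
  exact ContDiffAt.sum fun σ _ => contDiffAt_const.mul (contDiffAt_prod fun i _ => h _ _)

theorem cd_inv {A : E → M3} {x : E} (h : ∀ i j, ContDiffAt ℝ ∞ (fun z => A z i j) x)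
    (h0 : (A x).det ≠ 0) (i j : Fin 3) : ContDiffAt ℝ ∞ (fun z => (A z)⁻¹ i j) x := by
  simp only [inv_def, Ring.inverse_eq_inv', Matrix.smul_apply, smul_eq_mul, adjugate_apply]
  refine ((cd_det h).inv h0).mul (cd_det fun a b => ?_)
  simp only [updateRow_apply]
  split_ifs
  · exact contDiffAt_const
  · exact h a b

end calculus

/-- A matrix acting on X. -/
def mv (A : M3) (y : X) : X := WithLp.toLp 2 (A *ᵥ y.ofLp)

theorem mv_apply (A : M3) (y : X) (i : Fin 3) : mv A y i = ∑ j, A i j * y j := rfl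

theorem mv_mv (A B : M3) (y : X) : mv A (mv B y) = mv (A * B) y := by
  simp [mv]

theorem mv_one (y : X) : mv 1 y = y := by simp [mv]

theorem mv_smul (A : M3) (t : ℝ) (y : X) : mv A (t • y) = t • mv A y := by
  simp [mv, mulVec_smul]

theorem mv_ne {A : M3} (h : A.det ≠ 0) {y : X} (hy : y ≠ 0) : mv A y ≠ 0 := fun e => hy (by
  have h1 := congrArg (mv A⁻¹) e
  rw [mv_mv, nonsing_inv_mul A (isUnit_iff_ne_zero.2 h), mv_one] at h1
  rw [h1]
  simp [mv])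

theorem cd_mv {E : Type} [NormedAddCommGroup E] [NormedSpace ℝ E] {A : E → M3} {v : E → X} {x : E}
    (h : ∀ i j, ContDiffAt ℝ ∞ (fun z => A z i j) x) (hv : ContDiffAt ℝ ∞ v x) :
    ContDiffAt ℝ ∞ (fun z => mv (A z) (v z)) x :=
  contDiffAt_euclidean.2 fun i => ContDiffAt.sum (s := Finset.univ)
    (f := fun j z => A z i j * v z j) fun j _ => (h i j).mul (cd_co hv j)

/-- The map exp(t) w ↦ exp(f t) A(t) w / |A(t) w|. -/
def Psi (f : ℝ → ℝ) (A : ℝ → M3) (y : X) : X :=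
  (Real.exp (f (Real.log ‖y‖)) / ‖mv (A (Real.log ‖y‖)) y‖) • mv (A (Real.log ‖y‖)) y

variable {f g : ℝ → ℝ} {A B : ℝ → M3} {y : X}

theorem norm_psi (h : ∀ t, (A t).det ≠ 0) (hy : y ≠ 0) :
    ‖Psi f A y‖ = Real.exp (f (Real.log ‖y‖)) := by
  have := norm_pos_iff.2 (mv_ne (h (Real.log ‖y‖)) hy)
  rw [Psi, norm_smul, Real.norm_of_nonneg (by positivity), div_mul_cancel₀ _ this.ne']

theorem log_psi (h : ∀ t, (A t).det ≠ 0) (hy : y ≠ 0) :
    Real.log ‖Psi f A y‖ = f (Real.log ‖y‖) := by rw [norm_psi h hy, Real.log_exp]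

theorem psi_ne (h : ∀ t, (A t).det ≠ 0) (hy : y ≠ 0) : Psi f A y ≠ 0 :=
  norm_pos_iff.1 (norm_psi h hy ▸ Real.exp_pos _)

theorem psi_psi (h : ∀ t, (A t).det ≠ 0) (h1 : ∀ t, g (f t) = t) (h2 : ∀ t, B (f t) * A t = 1)
    (hy : y ≠ 0) : Psi g B (Psi f A y) = y := by
  have h3 := norm_pos_iff.2 (mv_ne (h (Real.log ‖y‖)) hy)
  have h4 := norm_pos_iff.2 hy
  have h5 : mv (B (f (Real.log ‖y‖))) (Psi f A y) =
      (Real.exp (f (Real.log ‖y‖)) / ‖mv (A (Real.log ‖y‖)) y‖) • y := by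
    rw [Psi, mv_smul, mv_mv, h2, mv_one]
  have h6 : 0 < Real.exp (f (Real.log ‖y‖)) / ‖mv (A (Real.log ‖y‖)) y‖ := by positivity
  rw [Psi, log_psi h hy, h5, h1, Real.exp_log h4, norm_smul, Real.norm_of_nonneg h6.le, smul_smul,
    mul_comm _ ‖y‖, div_mul_eq_div_div, div_self h4.ne', div_mul_cancel₀ _ h6.ne', one_smul]

theorem log_smul {τ : ℝ} (hτ : 0 < τ) (hy : y ≠ 0) :
    Real.log ‖τ • y‖ = Real.log τ + Real.log ‖y‖ := by
  rw [norm_smul, Real.norm_of_nonneg hτ.le, Real.log_mul hτ.ne' (norm_ne_zero_iff.2 hy)]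

theorem cont_log (hy : y ≠ 0) : ContinuousAt (fun z : X => Real.log ‖z‖) y :=
  (cd_log (E := X) contDiffAt_id hy).continuousAt

theorem psi_hom {I : Set ℝ} (hI : IsOpen I) {c τ : ℝ} {A0 : M3}
    (h : ∀ t ∈ I, f t = c * t ∧ A t = A0) (hτ : 0 < τ) (hy : y ≠ 0) (h1 : Real.log ‖y‖ ∈ I)
    (h2 : Real.log τ + Real.log ‖y‖ ∈ I) :
    ∀ᶠ z in 𝓝 y, Psi f A (τ • z) = Real.exp (c * Real.log τ) • Psi f A z := by
  filter_upwards [isOpen_compl_singleton.mem_nhds hy, (cont_log hy).eventually (hI.mem_nhds h1),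
    (continuousAt_const.add (cont_log hy)).eventually (hI.mem_nhds h2)] with z hz z1 z2
  replace z2 : Real.log τ + Real.log ‖z‖ ∈ I := z2
  rw [Psi, Psi, log_smul hτ hz, (h _ z1).1, (h _ z1).2, (h _ z2).1, (h _ z2).2, mv_smul, norm_smul,
    Real.norm_of_nonneg hτ.le, smul_smul, smul_smul, mul_add, Real.exp_add]
  congr 1
  field_simp

/-- The shell -1 ≤ t ≤ 3. -/
def Sh : Set X := {y | Real.exp (-1) ≤ ‖y‖ ∧ ‖y‖ ≤ Real.exp 3}

theorem sh_compact : IsCompact Sh := by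
  refine (isCompact_closedBall (0 : X) (Real.exp 3)).of_isClosed_subset
    ((isClosed_le continuous_const continuous_norm).inter
      (isClosed_le continuous_norm continuous_const)) fun y hy => ?_
  simpa using hy.2

theorem sh_ne (h : y ∈ Sh) : y ≠ 0 := norm_pos_iff.1 ((Real.exp_pos _).trans_le h.1)

theorem mem_sh (hy : y ≠ 0) : y ∈ Sh ↔ -1 ≤ Real.log ‖y‖ ∧ Real.log ‖y‖ ≤ 3 := by
  have := norm_pos_iff.2 hy
  rw [Real.le_log_iff_exp_le this, Real.log_le_iff_le_exp this]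
  rfl

theorem not_sh (hy : y ≠ 0) (h : y ∉ Sh) : Real.log ‖y‖ < -1 ∨ 3 < Real.log ‖y‖ := by
  rw [mem_sh hy, not_and_or, not_le, not_le] at h
  exact h

variable {P : Type} [NormedAddCommGroup P] [NormedSpace ℝ P]

/-- A smooth family of such maps which are homogeneous for t ≥ 2 and for t ≤ 0. -/
structure Fm (f : P → ℝ → ℝ) (A : P → ℝ → M3) (l : P) : Prop where
  sf : ∀ t, ContDiffAt ℝ ∞ (fun z : P × ℝ => f z.1 z.2) (l, t)
  sA : ∀ t i j, ContDiffAt ℝ ∞ (fun z : P × ℝ => A z.1 z.2 i j) (l, t)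
  det : ∀ t, (A l t).det ≠ 0
  hi : ∃ c ≥ 1 / 2, ∃ A0, ∀ t ≥ 2, f l t = c * t ∧ A l t = A0
  lo : ∃ c ≥ 1 / 2, ∃ A0, ∀ t ≤ 0, f l t = c * t ∧ A l t = A0

theorem Fm.cd {f : P → ℝ → ℝ} {A : P → ℝ → M3} {l : P} (h : Fm f A l) (hy : y ≠ 0) :
    ContDiffAt ℝ ∞ (fun z : P × X => Psi (f z.1) (A z.1) z.2) (l, y) := by
  have h1 : ContDiffAt ℝ ∞ (fun z : P × X => (z.1, Real.log ‖z.2‖)) (l, y) :=
    contDiffAt_fst.prodMk (cd_log contDiffAt_snd hy)
  have h2 : ContDiffAt ℝ ∞ (fun z : P × X => mv (A z.1 (Real.log ‖z.2‖)) z.2) (l, y) :=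
    cd_mv (fun i j => ContDiffAt.comp (g := fun z : P × ℝ => A z.1 z.2 i j) (l, y) (h.sA _ i j) h1)
      contDiffAt_snd
  have h3 := mv_ne (h.det (Real.log ‖y‖)) hy
  exact (((h.sf _).comp (l, y) h1).exp.div (h2.norm ℝ h3) (norm_ne_zero_iff.2 h3)).smul h2

theorem Fm.cd1 {f : P → ℝ → ℝ} {A : P → ℝ → M3} {l : P} (h : Fm f A l) (hy : y ≠ 0) :
    ContDiffAt ℝ ∞ (Psi (f l) (A l)) y :=
  (h.cd hy).comp y (contDiffAt_const.prodMk contDiffAt_id)

/-- Uniformly bounded geometry on compact sets of parameters. -/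
theorem fm_cy {f : P → ℝ → ℝ} {A : P → ℝ → M3} {K : Set P} (hK : IsCompact K)
    (h : ∀ l ∈ K, Fm f A l) : ∃ B, ∀ l ∈ K, Cy1 B (Psi (f l) (A l)) := by
  have key : ∀ j : ℕ, ∃ b, 5 ≤ b ∧ ∀ l ∈ K, ∀ y ∈ Sh,
      ‖y‖ ^ j * ‖iteratedFDeriv ℝ j (Psi (f l) (A l)) y‖ ≤ b * ‖Psi (f l) (A l) y‖ := by
    intro j
    have hc : ContinuousOn (fun z : P × X => ‖z.2‖ ^ j *
        ‖iteratedFDeriv ℝ j (fun y => Psi (f z.1) (A z.1) y) z.2‖ / ‖Psi (f z.1) (A z.1) z.2‖)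
        (K ×ˢ Sh) := fun z hz => by
      have h1 := (h _ hz.1).cd (sh_ne hz.2)
      exact ((((continuous_snd.norm.pow j).continuousAt).mul
        (cd_iter j h1).continuousAt.norm).div h1.continuousAt.norm
        (norm_ne_zero_iff.2 (psi_ne (h _ hz.1).det (sh_ne hz.2)))).continuousWithinAt
    obtain ⟨b, hb⟩ := (hK.prod sh_compact).bddAbove_image hc
    refine ⟨max 5 b, le_max_left _ _, fun l hl y hy => ?_⟩
    have h1 := norm_pos_iff.2 (psi_ne (f := f l) (h _ hl).det (sh_ne hy))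
    have h2 := hb (mem_image_of_mem _ (show (l, y) ∈ K ×ˢ Sh from ⟨hl, hy⟩))
    exact ((div_le_iff₀ h1).1 h2).trans (mul_le_mul_of_nonneg_right (le_max_right _ _) h1.le)
  choose B B5 hB using key
  refine ⟨B, fun l hl => ⟨fun y hy => ((h l hl).cd1 hy).contDiffWithinAt,
    fun y hy => psi_ne (h l hl).det hy, fun j y hy => ?_, fun y hy => ?_⟩⟩
  · by_cases hs : y ∈ Sh
    · exact hB j l hl y hs
    have sc : ∀ T : ℝ, Real.log (Real.exp (T - Real.log ‖y‖)) + Real.log ‖y‖ = T := fun T => by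
      rw [Real.log_exp, sub_add_cancel]
    have ne : ∀ T : ℝ, Real.exp T • y ≠ 0 := fun T => smul_ne_zero (Real.exp_pos T).ne' hy
    rcases not_sh hy hs with h1 | h1
    · obtain ⟨c, -, A0, hc⟩ := (h l hl).lo
      refine hom_bd j (Real.exp_pos (-1 - Real.log ‖y‖)) (Real.exp_pos _) ((h l hl).cd1 hy)
        (psi_hom isOpen_Iio (fun t (ht : t < 0) => hc t ht.le) (Real.exp_pos _) hy
          (show Real.log ‖y‖ < 0 by linarith) (by rw [sc]; norm_num)) (hB j l hl _ ?_)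
      rw [mem_sh (ne _), log_smul (Real.exp_pos _) hy, sc]
      norm_num
    · obtain ⟨c, -, A0, hc⟩ := (h l hl).hi
      refine hom_bd j (Real.exp_pos (3 - Real.log ‖y‖)) (Real.exp_pos _) ((h l hl).cd1 hy)
        (psi_hom isOpen_Ioi (fun t (ht : 2 < t) => hc t ht.le) (Real.exp_pos _) hy
          (show 2 < Real.log ‖y‖ by linarith) (by rw [sc]; norm_num)) (hB j l hl _ ?_)
      rw [mem_sh (ne _), log_smul (Real.exp_pos _) hy, sc]
      norm_num
  · rw [log_psi (h l hl).det hy]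
    set t := Real.log ‖y‖
    have h0 : 1 + t ^ 2 ≤ 5 * (1 + f l t ^ 2) := by
      have sq : ∀ c ≥ (1 / 2 : ℝ), t ^ 2 ≤ 5 * (c * t) ^ 2 := fun c hc => by
        rw [mul_pow]
        nlinarith [sq_nonneg t, mul_nonneg (sq_nonneg t) (show 0 ≤ c ^ 2 - 1 / 4 by nlinarith)]
      rcases le_or_gt t 0 with h1 | h1
      · obtain ⟨c, c0, A0, hc⟩ := (h l hl).lo
        rw [(hc t h1).1]
        linarith [sq c c0]
      rcases le_or_gt 2 t with h2 | h2
      · obtain ⟨c, c0, A0, hc⟩ := (h l hl).hi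
        rw [(hc t h2).1]
        linarith [sq c c0]
      · nlinarith [sq_nonneg (f l t)]
    exact h0.trans (mul_le_mul_of_nonneg_right (B5 0) (by positivity))

/-- Functions supported in 0 ≤ t ≤ 2: only the shell counts. -/
theorem wn_shell {s η : ℝ} {m : ℕ} {F : X → ℝ} (hη : 0 ≤ η)
    (h0 : ∀ y ≠ 0, Real.log ‖y‖ < 0 ∨ 2 < Real.log ‖y‖ → F y = 0)
    (h : ∀ j ≤ m, ∀ y ∈ Sh, wt s j y * ‖iteratedFDeriv ℝ j F y‖ ≤ η) :
    wn s m F ≤ ENNReal.ofReal ((m + 1) * η) := by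
  refine wn_le_of fun j hj y hy => ?_
  by_cases hs : y ∈ Sh
  · exact h j hj y hs
  have h1 : F =ᶠ[𝓝 y] fun _ => 0 := by
    rcases not_sh hy hs with h1 | h1
    · filter_upwards [isOpen_compl_singleton.mem_nhds hy,
        (cont_log hy).eventually (gt_mem_nhds h1)] with z hz z1 using h0 z hz (.inl (by linarith))
    · filter_upwards [isOpen_compl_singleton.mem_nhds hy,
        (cont_log hy).eventually (lt_mem_nhds h1)] with z hz z1 using h0 z hz (.inr (by linarith))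
  rw [(h1.iteratedFDeriv ℝ j).eq_of_nhds]
  simpa using hη

theorem cont_wt {D : P × X → ℝ} {x : P × X} (s : ℝ) (j : ℕ) (h : ContDiffAt ℝ ∞ D x)
    (hx : x.2 ≠ 0) : ContinuousAt
      (fun z : P × X => wt s j z.2 * ‖iteratedFDeriv ℝ j (fun y => D (z.1, y)) z.2‖) x :=
  (((wt_cont s j).continuousAt (isOpen_compl_singleton.mem_nhds hx)).comp
    continuous_snd.continuousAt).mul (cd_iter j h).continuousAt.norm

theorem shell_bd {D : P × X → ℝ} {l : P} (s : ℝ) (m : ℕ)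
    (h : ∀ y ≠ 0, ContDiffAt ℝ ∞ D (l, y)) : ∃ η, 0 ≤ η ∧ ∀ j ≤ m, ∀ y ∈ Sh,
      wt s j y * ‖iteratedFDeriv ℝ j (fun y => D (l, y)) y‖ ≤ η := by
  have key : ∀ j : ℕ, ∃ b, 0 ≤ b ∧ ∀ y ∈ Sh,
      wt s j y * ‖iteratedFDeriv ℝ j (fun y => D (l, y)) y‖ ≤ b := fun j => by
    obtain ⟨b, hb⟩ := sh_compact.bddAbove_image (f := fun y =>
      wt s j y * ‖iteratedFDeriv ℝ j (fun y => D (l, y)) y‖) fun y hy =>
      ((cont_wt s j (h y (sh_ne hy)) (sh_ne hy)).comp (f := fun y : X => (l, y))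
        (continuousAt_const.prodMk continuousAt_id)).continuousWithinAt
    exact ⟨max 0 b, le_max_left _ _, fun y hy =>
      (hb (mem_image_of_mem _ hy)).trans (le_max_right _ _)⟩
  choose b b0 hb using key
  exact ⟨∑ j ∈ Finset.range (m + 1), b j, Finset.sum_nonneg fun j _ => b0 j, fun j hj y hy =>
    (hb j y hy).trans (Finset.single_le_sum (fun j _ => b0 j) (Finset.mem_range.2 (by omega)))⟩

theorem shell_small {D : P × X → ℝ} {l : P} (s : ℝ) (m : ℕ) {η : ℝ} (hη : 0 < η)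
    (h : ∀ y ≠ 0, ContDiffAt ℝ ∞ D (l, y)) (h0 : ∀ y ≠ 0, D (l, y) = 0) :
    ∀ᶠ l' in 𝓝 l, ∀ j ≤ m, ∀ y ∈ Sh,
      wt s j y * ‖iteratedFDeriv ℝ j (fun y => D (l', y)) y‖ ≤ η := by
  refine (eventually_all_finite (finite_Iic m)).2 fun j _ => ?_
  refine sh_compact.eventually_forall_of_forall_eventually fun y hy => ?_
  refine (cont_wt s j (h y (sh_ne hy)) (sh_ne hy)).eventually (ge_mem_nhds ?_)
  have h1 : (fun y => D (l, y)) =ᶠ[𝓝 y] fun _ => 0 := by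
    filter_upwards [isOpen_compl_singleton.mem_nhds (sh_ne hy)] with z hz using h0 z hz
  show wt s j y * ‖iteratedFDeriv ℝ j (fun y => D (l, y)) y‖ < η
  rw [(h1.iteratedFDeriv ℝ j).eq_of_nhds]
  simpa using hη

end Vale.Agent.P354ST
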