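import Vale.Agent.P354ST.Fam
import Vale.Agent.P354IK.Kpd

/-!
Operations on tensors depending on parameters, and the Kerr data as a function of the parameters.
-/

open scoped ContDiff
open Set Filter Topology Matrix

noncomputable section

namespace Vale.Agent.P354ST

open Vale.Agent.P354I
open Vale.Agent.P354T (qf UP)
open Vale.Agent.P354J (PDy)
open Vale.Agent.P354IK (bl' Sg_pos kerr_K)

/-- Rotation, interpolation and pull back of tensors. -/
def rotF (R : M3) (F : X → M3) (y : X) : M3 := Rᵀ * F (mv R y) * R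
def mixF (F F' : X → M3) (y : X) : M3 :=
  Real.smoothTransition (Real.log ‖y‖) • F y + (1 - Real.smoothTransition (Real.log ‖y‖)) • F' y
def pullF (F : X → M3) (ψ : X → X) (y : X) : M3 :=
  Matrix.of fun i j => ∑ k, ∑ l, pd i ψ y k * pd j ψ y l * F (ψ y) k l

section smooth

variable {P : Type} [NormedAddCommGroup P] [NormedSpace ℝ P]

/-- Joint smoothness of a family of tensors at a point. -/
def JS (F : P → X → M3) (l : P) (y : X) : Prop :=
  ∀ i j, ContDiffAt ℝ ∞ (fun z : P × X => F z.1 z.2 i j) (l, y)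

variable {F F' : P → X → M3} {l : P} {y : X}

theorem JS.at (h : JS F l y) (i j : Fin 3) : ContDiffAt ℝ ∞ (fun y => F l y i j) y :=
  ContDiffAt.comp (g := fun z : P × X => F z.1 z.2 i j) y (h i j)
    (contDiffAt_const.prodMk contDiffAt_id)

theorem JS.cmp {ψ : P → X → X} (hψ : ContDiffAt ℝ ∞ (fun z : P × X => ψ z.1 z.2) (l, y))
    (h : JS F l (ψ l y)) : JS (fun l y => F l (ψ l y)) l y := fun i j =>
  ContDiffAt.comp (g := fun z : P × X => F z.1 z.2 i j) (f := fun z : P × X => (z.1, ψ z.1 z.2))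
    (l, y) (h i j) (contDiffAt_fst.prodMk hψ)

theorem JS.par {Q : Type} [NormedAddCommGroup Q] [NormedSpace ℝ Q] {G : Q → X → M3} {π : P → Q}
    (hπ : ContDiffAt ℝ ∞ π l) (h : JS G (π l) y) : JS (fun l => G (π l)) l y := fun i j =>
  ContDiffAt.comp (g := fun z : Q × X => G z.1 z.2 i j) (f := fun z : P × X => (π z.1, z.2))
    (l, y) (h i j) ((ContDiffAt.comp (g := π) (l, y) hπ contDiffAt_fst).prodMk contDiffAt_snd)

theorem JS.pull {ψ : P → X → X} (hψ : ContDiffAt ℝ ∞ (fun z : P × X => ψ z.1 z.2) (l, y))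
    (h : JS F l (ψ l y)) : JS (fun l => pullF (F l) (ψ l)) l y := fun i j =>
  ContDiffAt.sum (s := Finset.univ) (f := fun k (z : P × X) =>
    ∑ n, pd i (ψ z.1) z.2 k * pd j (ψ z.1) z.2 n * F z.1 (ψ z.1 z.2) k n) fun k _ =>
    ContDiffAt.sum fun n _ => ((cd_pd hψ i k).mul (cd_pd hψ j n)).mul (h.cmp hψ k n)

theorem JS.mix (hy : y ≠ 0) (h : JS F l y) (h' : JS F' l y) :
    JS (fun l => mixF (F l) (F' l)) l y := fun i j => by
  have h1 : ContDiffAt ℝ ∞ (fun z : P × X => Real.smoothTransition (Real.log ‖z.2‖)) (l, y) :=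
    Real.smoothTransition.contDiff.contDiffAt.comp (l, y) (cd_log contDiffAt_snd hy)
  exact (h1.mul (h i j)).add ((contDiffAt_const.sub h1).mul (h' i j))

theorem JS.rot {R : P → M3} (hR : ∀ i j, ContDiffAt ℝ ∞ (fun l => R l i j) l)
    (h : JS F l (mv (R l) y)) : JS (fun l => rotF (R l) (F l)) l y := fun i j => by
  have h1 : ∀ i j, ContDiffAt ℝ ∞ (fun z : P × X => R z.1 i j) (l, y) := fun i j =>
    ContDiffAt.comp (g := fun l => R l i j) (l, y) (hR i j) contDiffAt_fst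
  have h2 := h.cmp (ψ := fun l y => mv (R l) y) (cd_mv h1 contDiffAt_snd)
  simp only [rotF, mul_apply, transpose_apply]
  exact ContDiffAt.sum fun b _ => (ContDiffAt.sum fun a _ => (h1 a i).mul (h2 a b)).mul (h1 b j)

theorem cd_dil {c : P → ℝ} (hc : ContDiffAt ℝ ∞ c l) (hy : y ≠ 0) :
    ContDiffAt ℝ ∞ (fun z : P × X => dil (c z.1) z.2) (l, y) :=
  ((contDiffAt_snd.norm ℝ hy).rpow ((ContDiffAt.comp (g := c) (l, y) hc contDiffAt_fst).sub
    contDiffAt_const) (norm_ne_zero_iff.2 hy)).smul contDiffAt_snd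

end smooth

theorem dil_ne (c : ℝ) {y : X} (hy : y ≠ 0) : dil c y ≠ 0 :=
  smul_ne_zero (Real.rpow_pos_of_pos (norm_pos_iff.2 hy) _).ne' hy

theorem dil_one (y : X) : dil 1 y = y := by simp [dil]

theorem pull_congr (F : X → M3) {ψ φ : X → X} {y : X} (h : ψ =ᶠ[𝓝 y] φ) :
    pullF F ψ y = pullF F φ y := by
  simp only [pullF, pd, h.fderiv_eq, h.eq_of_nhds]

theorem pull_left {F G : X → M3} {ψ : X → X} {y : X} (h : F (ψ y) = G (ψ y)) :
    pullF F ψ y = pullF G ψ y := by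
  simp only [pullF, h]

/-- The matrix as a linear map. -/
def mvL (R : M3) : X →L[ℝ] X := LinearMap.toContinuousLinearMap
  { toFun := mv R
    map_add' := fun x y => by simp [mv, mulVec_add]
    map_smul' := fun t y => mv_smul R t y }

theorem pull_rot (R : M3) (F : X → M3) {ψ : X → X} {y : X} (h : DifferentiableAt ℝ ψ y) :
    pullF (rotF R F) ψ y = pullF F (fun z => mv R (ψ z)) y := by
  have h1 : ∀ i, pd i (fun z => mv R (ψ z)) y = mv R (pd i ψ y) := fun i =>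
    congrArg (fun L : X →L[ℝ] X => L (ee i)) ((mvL R).hasFDerivAt.comp y h.hasFDerivAt).fderiv
  ext i j
  simp only [pullF, of_apply, h1, rotF, mv_apply, mul_apply, transpose_apply, Fin.sum_univ_three]
  ring

theorem mix_hi (F F' : X → M3) {y : X} (h : 1 ≤ Real.log ‖y‖) : mixF F F' y = F y := by
  rw [mixF, Real.smoothTransition.one_of_one_le h, sub_self, one_smul, zero_smul, add_zero]

theorem mix_lo (F F' : X → M3) {y : X} (h : Real.log ‖y‖ ≤ 0) : mixF F F' y = F' y := by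
  rw [mixF, Real.smoothTransition.zero_of_nonpos h, sub_zero, one_smul, zero_smul, zero_add]

theorem mix_self (F : X → M3) (y : X) : mixF F F y = F y := by
  rw [mixF, ← add_smul, add_sub_cancel, one_smul]

theorem rot_one (F : X → M3) : rotF 1 F = F := by
  ext1 y
  rw [rotF, mv_one, transpose_one, one_mul, mul_one]

theorem sq_mulVec {R : M3} (h : Rᵀ * R = 1) (v : Fin 3 → ℝ) :
    ∑ i, (R *ᵥ v) i ^ 2 = ∑ i, v i ^ 2 := by
  have h1 : (R *ᵥ v) ⬝ᵥ (R *ᵥ v) = v ⬝ᵥ v := by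
    rw [dotProduct_mulVec, vecMul_mulVec, h, vecMul_one]
  simpa only [dotProduct, ← sq] using h1

theorem norm_mv {R : M3} (h : Rᵀ * R = 1) (y : X) : ‖mv R y‖ = ‖y‖ := by
  rw [EuclideanSpace.norm_eq, EuclideanSpace.norm_eq]
  simp only [Real.norm_eq_abs, sq_abs]
  exact congrArg Real.sqrt (sq_mulVec h y.ofLp)

theorem qf_rot (R A : M3) (v : Fin 3 → ℝ) : qf (Rᵀ * A * R) v = qf A (R *ᵥ v) := by
  simp only [qf, mul_apply, transpose_apply, mulVec, dotProduct, Fin.sum_univ_three]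
  ring

theorem qf_mix (a b : ℝ) (A B : M3) (v : Fin 3 → ℝ) :
    qf (a • A + b • B) v = a * qf A v + b * qf B v := by
  simp only [qf, Matrix.add_apply, Matrix.smul_apply, smul_eq_mul, Fin.sum_univ_three]
  ring

theorem up_dat {p : End} {c : ℝ} (hR : p.Rᵀ * p.R = 1) (h : UP (kerr p.M p.a p.r) c) :
    UP p.dat c := by
  intro y hy v
  have h1 := norm_mv hR y
  have h2 := h (mv p.R y) (norm_ne_zero_iff.1 (h1 ▸ norm_ne_zero_iff.2 hy)) (p.R *ᵥ v)
  rw [h1, sq_mulVec hR, ← qf_rot] at h2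
  exact h2

theorem up_mix {d d' : Dat} {c : ℝ} (h : UP d c) (h' : UP d' c) : UP (mix d d') c := by
  intro y hy v
  have h0 := Real.smoothTransition.nonneg (Real.log ‖y‖)
  have h1 := sub_nonneg.2 (Real.smoothTransition.le_one (Real.log ‖y‖))
  have h2 := mul_le_mul_of_nonneg_left (h y hy v) h0
  have h3 := mul_le_mul_of_nonneg_left (h' y hy v) h1
  simp only [mix, qf_mix]
  linarith

theorem symm_rot (R : M3) {F : X → M3} {y : X} (h : (F (mv R y)).IsSymm) : (rotF R F y).IsSymm := by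
  rw [rotF, Matrix.IsSymm, transpose_mul, transpose_mul, transpose_transpose, h.eq, mul_assoc]

theorem symm_mix {F F' : X → M3} {y : X} (h : (F y).IsSymm) (h' : (F' y).IsSymm) :
    (mixF F F' y).IsSymm := (h.smul _).add (h'.smul _)

/-! ### The Kerr data depend smoothly on the parameters -/

section kerr

variable {E : Type} [NormedAddCommGroup E] [NormedSpace ℝ E] {x : E} {M a r f : E → ℝ}
  {y v w : E → X}

theorem cd_div (hy : ContDiffAt ℝ ∞ y x) (h0 : y x ≠ 0) (hf : ContDiffAt ℝ ∞ f x) :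
    ContDiffAt ℝ ∞ (fun z => f z / ‖y z‖ ^ 2) x :=
  hf.div (hy.norm_sq ℝ) (pow_ne_zero 2 (norm_ne_zero_iff.2 h0))

theorem cd_dT (hy : ContDiffAt ℝ ∞ y x) (h0 : y x ≠ 0) (hv : ContDiffAt ℝ ∞ v x) :
    ContDiffAt ℝ ∞ (fun z => dT (y z) (v z)) x := cd_div hy h0 (hy.inner ℝ hv)

theorem cd_dP (hy : ContDiffAt ℝ ∞ y x) (h0 : y x ≠ 0) (hv : ContDiffAt ℝ ∞ v x) :
    ContDiffAt ℝ ∞ (fun z => dP (y z) (v z)) x :=
  cd_div hy h0 (((cd_co hy 0).mul (cd_co hv 1)).sub ((cd_co hy 1).mul (cd_co hv 0)))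

theorem cd_rnd (hy : ContDiffAt ℝ ∞ y x) (h0 : y x ≠ 0) (hv : ContDiffAt ℝ ∞ v x)
    (hw : ContDiffAt ℝ ∞ w x) : ContDiffAt ℝ ∞ (fun z => rnd (y z) (v z) (w z)) x :=
  (cd_div hy h0 (hv.inner ℝ hw)).sub ((cd_dT hy h0 hv).mul (cd_dT hy h0 hw))

theorem cd_Sg (hy : ContDiffAt ℝ ∞ y x) (h0 : y x ≠ 0) (ha : ContDiffAt ℝ ∞ a x)
    (hr : ContDiffAt ℝ ∞ r x) : ContDiffAt ℝ ∞ (fun z => Sg (a z) (r z) (y z)) x :=
  (hr.pow 2).add ((ha.pow 2).mul (cd_div hy h0 ((cd_co hy 2).pow 2)))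

theorem cd_tw (hy : ContDiffAt ℝ ∞ y x) (h0 : y x ≠ 0) (hf : ContDiffAt ℝ ∞ f x) (u : X) :
    ContDiffAt ℝ ∞ (fun z => tw (f z) (y z) u) x := by
  refine contDiffAt_const.add ((hf.mul (cd_dT hy h0 contDiffAt_const)).smul ?_)
  refine contDiffAt_euclidean.2 fun i => ?_
  fin_cases i
  · exact (cd_co hy 1).neg
  · exact cd_co hy 0
  · exact contDiffAt_const

theorem cd_X (hy : ContDiffAt ℝ ∞ y x) (h0 : y x ≠ 0) (ha : ContDiffAt ℝ ∞ a x)
    (hv : ContDiffAt ℝ ∞ v x) (hw : ContDiffAt ℝ ∞ w x) : ContDiffAt ℝ ∞ (fun z =>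
      (dT (y z) (v z) - a z * dP (y z) (v z)) * (dT (y z) (w z) - a z * dP (y z) (w z))) x :=
  ((cd_dT hy h0 hv).sub (ha.mul (cd_dP hy h0 hv))).mul
    ((cd_dT hy h0 hw).sub (ha.mul (cd_dP hy h0 hw)))

end kerr

/-- Parameters of a slice between the horizons. -/
def Adm (p : P3) : Prop :=
  p.2.1 ≠ 0 ∧ |p.2.1| < p.1 ∧ rm p.1 p.2.1 < p.2.2 ∧ p.2.2 < rp p.1 p.2.1

variable {p : P3}

theorem cont_rm : Continuous fun p : P3 => rm p.1 p.2.1 := by
  unfold rm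
  fun_prop

theorem cont_rp : Continuous fun p : P3 => rp p.1 p.2.1 := by
  unfold rp
  fun_prop

theorem Adm.ev (h : Adm p) : ∀ᶠ q in 𝓝 p, Adm q := by
  filter_upwards [continuous_snd.fst.continuousAt.eventually_ne h.1,
    (isOpen_lt continuous_snd.fst.abs continuous_fst).mem_nhds h.2.1,
    (isOpen_lt cont_rm continuous_snd.snd).mem_nhds h.2.2.1,
    (isOpen_lt continuous_snd.snd cont_rp).mem_nhds h.2.2.2] with q h1 h2 h3 h4
  exact ⟨h1, h2, h3, h4⟩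

theorem Adm.rm_pos (h : Adm p) : 0 < rm p.1 p.2.1 := P354IK.rm_pos h.1 h.2.1

theorem Adm.r_pos (h : Adm p) : 0 < p.2.2 := h.rm_pos.trans h.2.2.1

theorem Adm.pdy (h : Adm p) : PDy (kerr p.1 p.2.1 p.2.2) :=
  P354IK.kpd _ _ _ h.1 h.2.1 h.2.2.1 h.2.2.2

theorem Adm.cd_sqrt (h : Adm p) : ContDiffAt ℝ ∞ (fun p : P3 => √(p.1 ^ 2 - p.2.1 ^ 2)) p := by
  refine ((contDiffAt_fst.pow 2).sub (contDiffAt_snd.fst.pow 2)).sqrt (ne_of_gt ?_)
  have := pow_lt_pow_left₀ h.2.1 (abs_nonneg _) two_ne_zero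
  rw [sq_abs] at this
  exact sub_pos.2 this

theorem Adm.cd_den (h : Adm p) :
    ContDiffAt ℝ ∞ (fun p : P3 => rm p.1 p.2.1 ^ 2 + p.2.1 ^ 2) p ∧
      0 < rm p.1 p.2.1 ^ 2 + p.2.1 ^ 2 :=
  ⟨((contDiffAt_fst.sub h.cd_sqrt).pow 2).add (contDiffAt_snd.fst.pow 2),
    add_pos_of_pos_of_nonneg (pow_pos h.rm_pos 2) (sq_nonneg _)⟩

theorem Adm.cd_kap (h : Adm p) :
    ContDiffAt ℝ ∞ (fun p : P3 => P354R.kap p.1 p.2.1) p ∧ 0 < P354R.kap p.1 p.2.1 :=
  ⟨((contDiffAt_fst.add h.cd_sqrt).sub (contDiffAt_fst.sub h.cd_sqrt)).div h.cd_den.1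
    h.cd_den.2.ne', div_pos (sub_pos.2 (h.2.2.1.trans h.2.2.2)) h.cd_den.2⟩

theorem Adm.js (h : Adm p) {y : X} (hy : y ≠ 0) :
    JS (fun p : P3 => (kerr p.1 p.2.1 p.2.2).h) p y ∧
      JS (fun p : P3 => (kerr p.1 p.2.1 p.2.2).K) p y := by
  have hM : ContDiffAt ℝ ∞ (fun z : P3 × X => z.1.1) (p, y) := contDiffAt_fst.fst
  have ha : ContDiffAt ℝ ∞ (fun z : P3 × X => z.1.2.1) (p, y) := contDiffAt_fst.snd.fst
  have hr : ContDiffAt ℝ ∞ (fun z : P3 × X => z.1.2.2) (p, y) := contDiffAt_fst.snd.snd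
  have h2 : ContDiffAt ℝ ∞ (fun z : P3 × X => z.2) (p, y) := contDiffAt_snd
  have ho : ContDiffAt ℝ ∞ (fun z : P3 × X => z.1.2.1 / (rm z.1.1 z.1.2.1 ^ 2 + z.1.2.1 ^ 2))
      (p, y) := ha.div (ContDiffAt.comp (g := fun p : P3 => rm p.1 p.2.1 ^ 2 + p.2.1 ^ 2) (p, y)
        h.cd_den.1 contDiffAt_fst) h.cd_den.2.ne'
  have ht := fun i => cd_tw h2 hy ho (ee i)
  have hS := cd_Sg h2 hy ha hr
  have S0 := Sg_pos h.r_pos p.2.1 y
  refine ⟨fun i j => ?_, fun i j => ?_⟩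
  · exact ((((cd_dT h2 hy (ht i)).mul (cd_dT h2 hy (ht j))).neg.add
      ((((contDiffAt_const.mul hM).mul hr).div hS S0.ne').mul (cd_X h2 hy ha (ht i) (ht j)))).add
      (hS.mul (cd_rnd h2 hy (ht i) (ht j)))).add
      ((ha.pow 2).mul ((cd_dP h2 hy (ht i)).mul (cd_dP h2 hy (ht j))))
  · have hD := P354IK.del_neg h.2.1 h.2.2.1 h.2.2.2
    refine ContDiffAt.congr_of_eventuallyEq (f := fun z : P3 × X =>
      -√(-(z.1.2.2 ^ 2 - 2 * z.1.1 * z.1.2.2 + z.1.2.1 ^ 2) / Sg z.1.2.1 z.1.2.2 z.2) / 2 *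
        bl' z.1.1 z.1.2.1 z.1.2.2 z.2
        (tw (z.1.2.1 / (rm z.1.1 z.1.2.1 ^ 2 + z.1.2.1 ^ 2)) z.2 (ee i))
        (tw (z.1.2.1 / (rm z.1.1 z.1.2.1 ^ 2 + z.1.2.1 ^ 2)) z.2 (ee j))) ?_ ?_
    · exact (((((((hr.pow 2).sub ((contDiffAt_const.mul hM).mul hr)).add (ha.pow 2)).neg.div hS
        S0.ne').sqrt (div_pos (neg_pos.2 hD) S0).ne').neg.div_const 2).mul
        ((((((contDiffAt_const.mul hM).mul (hS.sub (contDiffAt_const.mul (hr.pow 2)))).div
        (hS.pow 2) (pow_ne_zero 2 S0.ne')).mul (cd_X h2 hy ha (ht i) (ht j)))).add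
        ((contDiffAt_const.mul hr).mul (cd_rnd h2 hy (ht i) (ht j)))))
    · filter_upwards [hr.continuousAt.eventually (lt_mem_nhds h.r_pos)] with z hz
      exact kerr_K hz _ i j

/-- Uniform positivity, locally uniformly in the parameters. -/
theorem Adm.up (h : Adm p) : ∃ c > 0, ∀ᶠ q in 𝓝 p, UP (kerr q.1 q.2.1 q.2.2) c := by
  obtain ⟨c, c0, hc⟩ := P354T.up_kerr h.pdy.1 fun y hy => (h.pdy.2 y hy).1
  refine ⟨c / 2, half_pos c0, ?_⟩
  have h1 : ∀ᶠ q in 𝓝 p, ∀ y ∈ Metric.sphere (0 : X) 1, ∀ i j,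
      |kh q.1 q.2.1 q.2.2 y i j - kh p.1 p.2.1 p.2.2 y i j| ≤ c / 6 := by
    refine (isCompact_sphere (0 : X) 1).eventually_forall_of_forall_eventually fun y hy => ?_
    have hy0 : y ≠ 0 := fun e => by simp [e] at hy
    refine eventually_all.2 fun i => eventually_all.2 fun j => ?_
    have h2 := ((h.js hy0).1 i j).continuousAt
    have h3 := (((h.js hy0).1.at i j).continuousAt).comp (f := fun z : P3 × X => z.2)
      (x := (p, y)) continuous_snd.continuousAt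
    refine (h2.sub h3).abs.eventually (ge_mem_nhds ?_)
    simp only [Pi.sub_apply, Function.comp, sub_self, abs_zero]
    positivity
  filter_upwards [h1] with q hq y hy v
  have n0 : ‖y‖ ≠ 0 := norm_ne_zero_iff.2 hy
  have h2 := P354T.qf_close (A := (kerr q.1 q.2.1 q.2.2).h y) (B := (kerr p.1 p.2.1 p.2.2).h y)
    (t := ‖y‖ ^ 2) (η := c / 6) (by positivity) (fun i j => by
      have h3 := hq (‖y‖⁻¹ • y) (by simp [norm_smul, n0]) i j
      rw [P354T.kh_smul (inv_ne_zero n0), P354T.kh_smul (inv_ne_zero n0), inv_inv, ← mul_sub,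
        abs_mul, abs_of_nonneg (sq_nonneg _)] at h3
      exact h3) v
  linarith [hc y hy v]

end Vale.Agent.P354ST
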